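import Crest.Agent.N111.Lat.Ind
import Crest.Prelude.Def_GroupVonNeumann

-- ▼ part N111/Lat/Erg
section

/-!
# Row 111: ergodicity of the induced action on the commutant algebra `Q`.

`mulf f` is multiplication by a bounded measurable scalar function.  For a set `M` of operators on
`H`, `Qalg M` is the commutant of `amp M` and of all multiplications by indicators.
-/

set_option autoImplicit false

namespace Crest.Agent.N111

open MeasureTheory Topology Filter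
open scoped ENNReal InnerProductSpace

variable {H H' : Type*} [NormedAddCommGroup H] [InnerProductSpace ℂ H]
  [NormedAddCommGroup H'] [InnerProductSpace ℂ H']

/-- multiplication by a scalar function -/
noncomputable def mulf (H : Type*) [NormedAddCommGroup H] [InnerProductSpace ℂ H] (f : X → ℂ) :
    L2X H →L[ℂ] L2X H := fld μ fun x => f x • (1 : H →L[ℂ] H)

/-- multiplication by an indicator -/
noncomputable def mul1 (H : Type*) [NormedAddCommGroup H] [InnerProductSpace ℂ H] (A : Set X) :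
    L2X H →L[ℂ] L2X H := mulf H (A.indicator 1)

lemma isFld_indicator {A : Set X} (hA : MeasurableSet A) (z : H →L[ℂ] H') :
    IsFld μ fun x => A.indicator (1 : X → ℂ) x • z :=
  (IsFld.const z).smul (aestronglyMeasurable_const.indicator hA) (B := 1)
    (Eventually.of_forall fun x => by by_cases hx : x ∈ A <;> simp [hx])

lemma mul1_coeFn {A : Set X} (hA : MeasurableSet A) (ξ : L2X H) :
    mul1 H A ξ =ᵐ[μ] A.indicator ξ := by
  filter_upwards [(isFld_indicator hA (1 : H →L[ℂ] H)).coeFn ξ] with x hx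
  refine hx.trans ?_
  by_cases h : x ∈ A <;> simp [h]


lemma inner_mul1_left {A : Set X} (hA : MeasurableSet A) (ξ η : L2X H) :
    ⟪mul1 H A ξ, η⟫_ℂ = ⟪ξ, mul1 H A η⟫_ℂ := by
  rw [L2.inner_def, L2.inner_def]
  refine integral_congr_ae ?_
  filter_upwards [mul1_coeFn hA ξ, mul1_coeFn hA η] with x h1 h2
  rw [h1, h2]
  by_cases h : x ∈ A <;> simp [h]


lemma mul1_fld {A : Set X} (hA : MeasurableSet A) {T : X → H →L[ℂ] H'} (hT : IsFld μ T) :
    mul1 H' A ∘L fld μ T = fld μ T ∘L mul1 H A := by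
  ext1 ξ
  refine Lp.ext ?_
  filter_upwards [mul1_coeFn hA (fld μ T ξ), hT.coeFn ξ, hT.coeFn (mul1 H A ξ),
    mul1_coeFn hA ξ] with x h1 h2 h3 h4
  simp only [ContinuousLinearMap.comp_apply]
  rw [h1, h3, h4]
  by_cases h : x ∈ A <;> simp [h, h2]

lemma mul1_cst {A : Set X} (hA : MeasurableSet A) (v : H) :
    mul1 H A (cst H v) = indicatorConstLp 2 hA (measure_ne_top μ A) v := by
  refine Lp.ext ?_
  filter_upwards [mul1_coeFn hA (cst H v), cst_coeFn v,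
    indicatorConstLp_coeFn (p := 2) (hs := hA) (hμs := measure_ne_top μ A) (c := v)]
    with x h1 h2 h3
  rw [h1, h3]
  by_cases h : x ∈ A <;> simp [h, h2]

lemma ind_mul1 (π : URep Γ H) (g : G) {A : Set X} (hA : MeasurableSet A) :
    ind π g * mul1 H A = mul1 H ((fun x => g⁻¹ • x) ⁻¹' A) * ind π g := by
  ext1 ξ
  refine Lp.ext ?_
  filter_upwards [ind_coeFn π g (mul1 H A ξ), ae_smul g⁻¹ (mul1_coeFn hA ξ),
    mul1_coeFn ((measurePreserving_smul g⁻¹).measurable hA) (ind π g ξ), ind_coeFn π g ξ]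
    with x h1 h2 h3 h4
  simp only [mul_apply_eq_comp]
  rw [h1, h2, h3]
  by_cases h : g⁻¹ • x ∈ A <;> simp [h, h4]

/-- the vectors `1_A ⊗ v` are total -/
theorem L2X_induction {p : L2X H → Prop} (hc : IsClosed {ξ | p ξ})
    (hadd : ∀ ξ η, p ξ → p η → p (ξ + η))
    (h : ∀ (A : Set X), MeasurableSet A → ∀ v, p (mul1 H A (cst H v))) (ξ : L2X H) : p ξ := by
  refine Lp.induction (by norm_num) p (fun v A hA _ => ?_) (fun f g hf hg _ => hadd _ _) hc ξ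
  rw [Lp.simpleFunc.coe_indicatorConst, ← mul1_cst hA]
  exact h A hA v

theorem L2X_ext {E : Type*} [NormedAddCommGroup E] [NormedSpace ℂ E] {S T : L2X H →L[ℂ] E}
    (h : ∀ (A : Set X), MeasurableSet A → ∀ v, S (mul1 H A (cst H v)) = T (mul1 H A (cst H v))) :
    S = T := by
  ext1 ξ
  exact L2X_induction (p := fun ξ => S ξ = T ξ) (isClosed_eq S.continuous T.continuous)
    (fun ξ η h1 h2 => by rw [map_add, map_add, h1, h2]) h ξ

theorem L2X_ext_inner {ξ η : L2X H}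
    (h : ∀ (A : Set X), MeasurableSet A → ∀ v,
      ⟪mul1 H A (cst H v), ξ⟫_ℂ = ⟪mul1 H A (cst H v), η⟫_ℂ) : ξ = η :=
  ext_inner_left ℂ fun ζ => L2X_induction (p := fun ζ => ⟪ζ, ξ⟫_ℂ = ⟪ζ, η⟫_ℂ)
    (isClosed_eq (by fun_prop) (by fun_prop))
    (fun a b h1 h2 => by rw [inner_add_left, inner_add_left, h1, h2]) h ζ

theorem mul1_fld_countable {K : Type*} [Countable K] [MeasurableSpace K]
    [DiscreteMeasurableSpace K] {c : X → K} (hc : Measurable c) {Ψ : K → H →L[ℂ] H'} {D : ℝ}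
    (hΨ : ∀ k, ‖Ψ k‖ ≤ D) (k : K) (ξ : L2X H) :
    mul1 H' (c ⁻¹' {k}) (fld μ (fun x => Ψ (c x)) ξ) = mul1 H' (c ⁻¹' {k}) (amp (Ψ k) ξ) := by
  have hm : MeasurableSet (c ⁻¹' {k}) := hc (MeasurableSet.of_discrete)
  refine Lp.ext ?_
  filter_upwards [mul1_coeFn hm (fld μ (fun x => Ψ (c x)) ξ),
    mul1_coeFn hm (amp (Ψ k) ξ), (IsFld.of_countable (ν := μ) hc Ψ hΨ).coeFn ξ,
    amp_coeFn (Ψ k) ξ] with x h1 h2 h3 h4
  rw [h1, h2]
  by_cases hx : x ∈ c ⁻¹' {k}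
  · rw [Set.indicator_of_mem hx, Set.indicator_of_mem hx, h3, h4, show c x = k from hx]
  · simp [hx]

/-- an operator commuting with indicators and with `amp (Φ k)` commutes with the field `Φ ∘ c` -/
theorem comm_fld_countable {K : Type*} [Countable K] [MeasurableSpace K]
    [DiscreteMeasurableSpace K] {c : X → K} (hc : Measurable c) {T : L2X H →L[ℂ] L2X H'}
    (hT : ∀ A, MeasurableSet A → T ∘L mul1 H A = mul1 H' A ∘L T)
    {Φ : K → H →L[ℂ] H} {Φ' : K → H' →L[ℂ] H'} {C C' : ℝ} (hΦ : ∀ k, ‖Φ k‖ ≤ C)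
    (hΦ' : ∀ k, ‖Φ' k‖ ≤ C') (h : ∀ k, T ∘L amp (Φ k) = amp (Φ' k) ∘L T) :
    T ∘L fld μ (fun x => Φ (c x)) = fld μ (fun x => Φ' (c x)) ∘L T := by
  have hm : ∀ k, MeasurableSet (c ⁻¹' {k}) := fun k => hc (MeasurableSet.of_discrete)
  ext1 ξ
  refine Lp.ext ?_
  have h1 : ∀ k, mul1 H' (c ⁻¹' {k}) (T (fld μ (fun x => Φ (c x)) ξ))
      = mul1 H' (c ⁻¹' {k}) (fld μ (fun x => Φ' (c x)) (T ξ)) := fun k => by
    have e1 := fun η => congrArg (fun S : L2X H →L[ℂ] L2X H' => S η) (hT _ (hm k))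
    have e2 := congrArg (fun S : L2X H →L[ℂ] L2X H' => S ξ) (h k)
    simp only [ContinuousLinearMap.comp_apply] at e1 e2
    rw [← e1, mul1_fld_countable hc hΦ, e1, e2, mul1_fld_countable hc hΦ']
  have h2 : ∀ k, ∀ᵐ x ∂μ, c x = k →
      T (fld μ (fun x => Φ (c x)) ξ) x = fld μ (fun x => Φ' (c x)) (T ξ) x := fun k => by
    filter_upwards [mul1_coeFn (hm k) (T (fld μ (fun x => Φ (c x)) ξ)),
      mul1_coeFn (hm k) (fld μ (fun x => Φ' (c x)) (T ξ))] with x a b hx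
    have hx' : x ∈ c ⁻¹' {k} := hx
    rw [h1 k, b, Set.indicator_of_mem hx', Set.indicator_of_mem hx'] at a
    exact a.symm
  filter_upwards [ae_all_iff.2 h2] with x hx using hx _ rfl

variable [CompleteSpace H]

/-- commuting with `amp S` is the same as commuting with `amp S''` -/
theorem comm_amp_of_bicommutant {S : Set (H →L[ℂ] H)} {T : L2X H →L[ℂ] L2X H}
    (hT : ∀ z ∈ S, T * amp z = amp z * T) {z : H →L[ℂ] H}
    (hz : z ∈ Set.centralizer (Set.centralizer S)) : T * amp z = amp z * T := by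
  have hten : ∀ A, MeasurableSet A → ∀ (y : H →L[ℂ] H) (v : H),
      amp y (mul1 H A (cst H v)) = mul1 H A (cst H (y v)) := fun A hA y v => by
    have := congrArg (fun S : L2X H →L[ℂ] L2X H => S (cst H v)) (mul1_fld hA (IsFld.const y))
    simp only [ContinuousLinearMap.comp_apply] at this
    rw [← amp_cst]
    exact this.symm
  refine L2X_ext fun B hB v => L2X_ext_inner fun A hA w => ?_
  let TAB : H →L[ℂ] H :=
    ContinuousLinearMap.adjoint (mul1 H A ∘L cst H) ∘L T ∘L (mul1 H B ∘L cst H)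
  have hTAB : ∀ v w, ⟪w, TAB v⟫_ℂ = ⟪mul1 H A (cst H w), T (mul1 H B (cst H v))⟫_ℂ := fun v w => by
    simp only [TAB, ContinuousLinearMap.comp_apply, ContinuousLinearMap.adjoint_inner_right]
  have key : ∀ (y : H →L[ℂ] H) (v w : H), ⟪w, (TAB * y) v⟫_ℂ = ⟪w, (y * TAB) v⟫_ℂ ↔
      ⟪mul1 H A (cst H w), (T * amp y) (mul1 H B (cst H v))⟫_ℂ
        = ⟪mul1 H A (cst H w), (amp y * T) (mul1 H B (cst H v))⟫_ℂ := fun y v w => by
    simp only [mul_apply_eq_comp]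
    rw [hTAB, hten B hB, ← ContinuousLinearMap.adjoint_inner_left y, hTAB,
      ← ContinuousLinearMap.adjoint_inner_left (amp y), ← ContinuousLinearMap.star_eq_adjoint,
      ← ContinuousLinearMap.star_eq_adjoint, star_amp, hten A hA]
  have h1 : TAB ∈ Set.centralizer S := fun y hy => by
    ext v
    exact ext_inner_left ℂ fun w => ((key y v w).2 (by rw [hT y hy])).symm
  exact (key z v w).1 (by rw [hz TAB h1])

/-- the commutant of `amp S` and of the multiplication operators -/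
def Qalg (S : Set (H →L[ℂ] H)) : Set (L2X H →L[ℂ] L2X H) :=
  {T | (∀ z ∈ S, T * amp z = amp z * T) ∧ ∀ A, MeasurableSet A → T * mul1 H A = mul1 H A * T}


omit [CompleteSpace H] in
/-- `cst Ω` separates `Q` when `Ω` is cyclic for `S` -/
theorem Qalg_ext {S : Set (H →L[ℂ] H)} {Ω : H}
    (hΩ : Dense (Submodule.span ℂ {v | ∃ z ∈ S, v = z Ω} : Set H)) {T T' : L2X H →L[ℂ] L2X H}
    (hT : T ∈ Qalg S) (hT' : T' ∈ Qalg S) (h : T (cst H Ω) = T' (cst H Ω)) : T = T' := by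
  have h1 : T ∘L cst H = T' ∘L cst H := by
    refine ContinuousLinearMap.ext_on hΩ ?_
    rintro _ ⟨z, hz, rfl⟩
    have e1 := congrArg (fun S : L2X H →L[ℂ] L2X H => S (cst H Ω)) (hT.1 z hz)
    have e2 := congrArg (fun S : L2X H →L[ℂ] L2X H => S (cst H Ω)) (hT'.1 z hz)
    simp only [mul_apply_eq_comp, amp_cst] at e1 e2
    simp only [ContinuousLinearMap.comp_apply, e1, e2, h]
  refine L2X_ext fun A hA v => ?_
  have e1 := congrArg (fun S : L2X H →L[ℂ] L2X H => S (cst H v)) (hT.2 A hA)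
  have e2 := congrArg (fun S : L2X H →L[ℂ] L2X H => S (cst H v)) (hT'.2 A hA)
  have e3 := congrArg (fun S : H →L[ℂ] L2X H => S v) h1
  simp only [mul_apply_eq_comp, ContinuousLinearMap.comp_apply] at e1 e2 e3
  rw [e1, e2, e3]

omit [CompleteSpace H] in
theorem Qalg_conj {S : Set (H →L[ℂ] H)} {ρ : URep Γ H} (hρ : ∀ z ∈ S, ∀ γ, ρ γ * z = z * ρ γ)
    {T : L2X H →L[ℂ] L2X H} (hT : T ∈ Qalg S) (g : G) : ind ρ g * T * ind ρ g⁻¹ ∈ Qalg S := by
  constructor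
  · intro z hz
    have e : ∀ g, ind ρ g * amp z = amp z * ind ρ g := fun g => ind_amp (hρ z hz) g
    rw [mul_assoc, e, ← mul_assoc, mul_assoc _ T, hT.1 z hz, ← mul_assoc, e]
    simp only [mul_assoc]
  · intro A hA
    have hA' := (measurePreserving_smul g⁻¹⁻¹).measurable hA
    rw [mul_assoc, ind_mul1 ρ g⁻¹ hA, ← mul_assoc, mul_assoc _ T, hT.2 _ hA', ← mul_assoc,
      ind_mul1 ρ g hA']
    simp only [mul_assoc, Set.preimage_preimage, inv_inv, smul_inv_smul, Set.preimage_id']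

/-- pointwise product of two commuting representations -/
def URep.mulRep {K : Type*} [Group K] {E : Type*} [NormedAddCommGroup E] [InnerProductSpace ℂ E]
    (L ρ : URep K E) (h : ∀ a b, L a * ρ b = ρ b * L a) : URep K E :=
  URep.mk' (fun k => L k * ρ k) (by simp)
    (fun a b => by
      simp only [map_mul, mul_assoc]
      rw [← mul_assoc (L b), h b a, mul_assoc])
    (fun k v => by rw [mul_apply_eq_comp, L.norm_map, ρ.norm_map])

@[simp] lemma URep.mulRep_apply {K : Type*} [Group K] {E : Type*} [NormedAddCommGroup E]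
    [InnerProductSpace ℂ E] (L ρ : URep K E) (h) (k : K) : L.mulRep ρ h k = L k * ρ k := rfl

/-- data making `T ↦ T (cst Ω)` an equivariant embedding of `Q` into a unitary representation:
`S` is the left algebra, `ρ` the right action, `L` the left action with `L γ ρ γ Ω = Ω`. -/
structure ErgData (S : Set (H →L[ℂ] H)) (ρ L : URep Γ H) (Ω : H) : Prop where
  comm : ∀ z ∈ S, ∀ γ, ρ γ * z = z * ρ γ
  L_mem : ∀ γ, L γ ∈ Set.centralizer (Set.centralizer S)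
  L_Ω : ∀ γ, L γ (ρ γ Ω) = Ω
  cyc : Dense (Submodule.span ℂ {v | ∃ z ∈ S, v = z Ω} : Set H)
  erg : ∀ v, (∀ γ, L γ (ρ γ v) = v) → ∃ c : ℂ, v = c • Ω

namespace ErgData

variable {S : Set (H →L[ℂ] H)} {ρ L : URep Γ H} {Ω : H} (h : ErgData S ρ L Ω)
include h

omit [CompleteSpace H] in
lemma L_comm (a b : Γ) : L a * ρ b = ρ b * L a :=
  (h.L_mem a (ρ b) fun z hz => (h.comm z hz b).symm).symm

/-- the conjugation representation of `Γ` -/
def ad : URep Γ H := L.mulRep ρ h.L_comm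

omit [CompleteSpace H] in
lemma ad_apply (γ : Γ) (v : H) : h.ad γ v = L γ (ρ γ v) := rfl

theorem conj_cst {T : L2X H →L[ℂ] L2X H} (hT : T ∈ Qalg S) (g : G) :
    (ind ρ g * T * ind ρ g⁻¹) (cst H Ω) = ind h.ad g (T (cst H Ω)) := by
  have hL := isFld_coc L (fun _ => L.norm_le _) g
  have e1 : ind ρ g⁻¹ (cst H Ω) = fld μ (fun x => L (coc g x)) (cst H Ω) := by
    refine Lp.ext ?_
    filter_upwards [ind_cst_coeFn ρ g⁻¹ Ω, hL.coeFn (cst H Ω), cst_coeFn Ω] with x h1 h2 h3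
    rw [h1, h2, h3, inv_inv]
    conv_lhs => rw [← h.L_Ω (coc g x), ← mul_apply_eq_comp, ← h.L_comm, mul_apply_eq_comp,
      ρ.inv_apply_apply]
  have e2 := comm_fld_countable (c := coc g) (measurable_coc measurable_const measurable_id) hT.2
    (fun _ => L.norm_le _) (fun _ => L.norm_le _)
    fun k => comm_amp_of_bicommutant hT.1 (h.L_mem k)
  have e3 := congrArg (fun S : L2X H →L[ℂ] L2X H => S (cst H Ω)) e2
  simp only [ContinuousLinearMap.comp_apply] at e3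
  simp only [mul_apply_eq_comp]
  rw [e1, e3]
  refine Lp.ext ?_
  filter_upwards [ind_coeFn ρ g (fld μ (fun x => L (coc g x)) (T (cst H Ω))),
    ae_smul g⁻¹ (hL.coeFn (T (cst H Ω))), ind_coeFn h.ad g (T (cst H Ω))] with x h1 h2 h3
  rw [h1, h2, h3, ad_apply, ← mul_apply_eq_comp, ← h.L_comm, mul_apply_eq_comp]

omit [CompleteSpace H] in
theorem mem_fix_ad {ξ : L2X H} (hξ : ξ ∈ (ind h.ad).fix) : ∃ c : ℂ, ξ = c • cst H Ω := by
  obtain ⟨v, hv, rfl⟩ := mem_fix_ind.1 hξ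
  obtain ⟨c, rfl⟩ := h.erg v hv
  exact ⟨c, map_smul _ _ _⟩

/-- **Ergodicity**, abstract form. -/
theorem scalar_of {u : G} (hu : ∀ ξ, ind h.ad u ξ = ξ → ξ ∈ (ind h.ad).fix)
    {T : L2X H →L[ℂ] L2X H} (hT : T ∈ Qalg S) (hTu : ind ρ u * T = T * ind ρ u) :
    ∃ c : ℂ, T = c • 1 := by
  have e := h.conj_cst hT u
  rw [hTu, mul_assoc, URep.mul_inv_self, mul_one] at e
  obtain ⟨c, hc⟩ := h.mem_fix_ad (hu _ e.symm)
  exact ⟨c, Qalg_ext h.cyc hT ⟨fun _ _ => by simp, fun _ _ => by simp⟩ hc⟩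

/-- **Ergodicity**: an element of `Q` commuting with a conjugate of a transvection is scalar. -/
theorem scalar_of_tv {i j : Fin 3} (hij : i ≠ j) {b : ℝ} (hb : b ≠ 0) (g : G)
    {T : L2X H →L[ℂ] L2X H} (hT : T ∈ Qalg S)
    (hTu : ind ρ (g * tv hij b * g⁻¹) * T = T * ind ρ (g * tv hij b * g⁻¹)) :
    ∃ c : ℂ, T = c • 1 :=
  h.scalar_of (fun _ => (ind_cont _).fix_of_conj_tv hij hb g) hT hTu


/-- the projection onto the invariant vectors of the conjugation representation (`‖Ω‖ = 1`) -/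
theorem P_ad (hΩ : ‖Ω‖ = 1) (ξ : L2X H) : (ind h.ad).P ξ = ⟪cst H Ω, ξ⟫_ℂ • cst H Ω := by
  obtain ⟨c, hc⟩ := h.mem_fix_ad ((ind h.ad).P_mem ξ)
  have e := (ind h.ad).inner_P_of_mem (cst_mem_fix (π := h.ad) h.L_Ω) ξ
  rw [hc, inner_smul_right, inner_self_eq_norm_sq_to_K, norm_cst, hΩ] at e
  rw [hc, ← e]; simp

/-- **Mixing on `Q`**: `σ_{a t}(T) → τ(T)` weakly along diagonal families. -/
theorem mixing_Q (hΩ : ‖Ω‖ = 1) {α : Type*} {l : Filter α} {a : α → G}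
    (ha : WTends l (fun t => ind h.ad (a t)) (ind h.ad).P) {T : L2X H →L[ℂ] L2X H}
    (hT : T ∈ Qalg S) :
    WTends l (fun t => ind ρ (a t) * T * ind ρ (a t)⁻¹) (⟪cst H Ω, T (cst H Ω)⟫_ℂ • 1) := by
  intro w v
  refine tendsto_iff_ultrafilter _ _ _ |>.2 fun U hU => ?_
  have hb : ∀ᶠ t in U, ‖ind ρ (a t) * T * ind ρ (a t)⁻¹‖ ≤ ‖T‖ := Eventually.of_forall fun t =>
    (norm_mul_le _ _).trans ((mul_le_of_le_one_right (norm_nonneg _) (URep.norm_le _ _)).trans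
      ((norm_mul_le _ _).trans (mul_le_of_le_one_left (norm_nonneg _) (URep.norm_le _ _))))
  obtain ⟨A, -, hA⟩ := exists_wtends U hb
  have hcomm : ∀ B B' : L2X H →L[ℂ] L2X H, star B = B' →
      (∀ t, (ind ρ (a t) * T * ind ρ (a t)⁻¹) * B = B * (ind ρ (a t) * T * ind ρ (a t)⁻¹)) →
      A * B = B * A := fun B B' hB h1 => by
    ext1 x
    refine ext_inner_left ℂ fun y => tendsto_nhds_unique (hA y (B x)) ?_
    have h2 := hA (ContinuousLinearMap.adjoint B y) x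
    simp only [ContinuousLinearMap.adjoint_inner_left] at h2
    refine h2.congr fun t => ?_
    rw [← mul_apply_eq_comp B, ← h1, mul_apply_eq_comp]
  have hAQ : A ∈ Qalg S := ⟨fun z hz => hcomm _ _ rfl fun t => (Qalg_conj h.comm hT _).1 z hz,
    fun B hB => hcomm _ _ rfl fun t => (Qalg_conj h.comm hT _).2 B hB⟩
  have e : A = ⟪cst H Ω, T (cst H Ω)⟫_ℂ • 1 := by
    refine Qalg_ext h.cyc hAQ ⟨fun _ _ => by simp, fun _ _ => by simp⟩ ?_
    refine ext_inner_left ℂ fun y => tendsto_nhds_unique (hA y _) ?_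
    simp only [h.conj_cst hT]
    have := (ha y (T (cst H Ω))).mono_left hU
    rwa [h.P_ad hΩ] at this
  exact e ▸ hA w v

end ErgData

end Crest.Agent.N111
end

-- ▼ part N111/Defs

/-!
# Row 111: frozen definitions (captain helper57).

Conventions.  `V = Fin 3 → ℝ` with the SUP norm.  `ι : Γ →* G` is the inclusion, `dl g = g⁻¹ᵀ` the
duality.  The target representation `ρ` acts on the position index `μ` by LEFT translation; the
source acts by right convolutions.  Points and lines are both vectors; lines are the points of the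
dual structure `I.dual`.
-/

set_option autoImplicit false

namespace Crest.Agent.N111

open MeasureTheory Topology Filter Matrix
open scoped InnerProductSpace

/-! ## Linear geometry -/

abbrev V : Type := Fin 3 → ℝ

/-- standard basis vector -/
def ev (i : Fin 3) : V := Pi.single i 1

/-- the duality `g ↦ g⁻¹ᵀ` -/
def dl {R : Type} [CommRing R] :
    Matrix.SpecialLinearGroup (Fin 3) R →* Matrix.SpecialLinearGroup (Fin 3) R where
  toFun g := (g⁻¹).transpose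
  map_one' := by ext i j; simp [Matrix.SpecialLinearGroup.transpose]
  map_mul' g h := by
    apply Subtype.ext
    simp [Matrix.SpecialLinearGroup.transpose]

/-- the linear action of `G` on `V` -/
def ac (g : G) (a : V) : V := (g : Matrix (Fin 3) (Fin 3) ℝ) *ᵥ a

/-- largest absolute value of an entry -/
noncomputable def nm (g : G) : ℝ := ‖(fun i j => g i j : Fin 3 → Fin 3 → ℝ)‖

/-- index of a column of largest sup norm -/
noncomputable def jm (μ : Γ) : Fin 3 :=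
  (Finite.exists_max fun j : Fin 3 => ‖ac (ι μ) (ev j)‖).choose

/-- a column of largest norm: the (approximate) attracting point of `μ`; `‖pt μ‖ = nm (ι μ)` -/
noncomputable def pt (μ : Γ) : V := ac (ι μ) (ev (jm μ))

/-- the flow `diag(e^{-2s}, e^s, e^s)` -/
noncomputable def al (s : ℝ) : G := dg (-2 * s) s

/-- the wall shell at level `L` and width `R` -/
def Sh (L R : ℝ) : Set Γ :=
  {μ | |Real.log (nm (ι μ)) - 2 * L| ≤ R ∧ Real.log (nm (ι μ⁻¹)) ≤ L + R}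

/-- radial projection to the unit sphere of the sup norm -/
noncomputable def nrm (a : V) : V := ‖a‖⁻¹ • a

/-- lexicographic positivity -/
def LexPos (a : V) : Prop := 0 < a 0 ∨ (a 0 = 0 ∧ 0 < a 1) ∨ (a 0 = 0 ∧ a 1 = 0 ∧ 0 < a 2)

open Classical in
/-- the Borel section of `V → V/±` -/
noncomputable def sg (a : V) : V := if LexPos a then a else -a

/-- even functions -/
def Ev {Y : Type} [Neg Y] (f : Y → ℂ) : Prop := ∀ a, f (-a) = f a

/-- functions of the projective point: invariant under all nonzero scalars -/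
def Hom0 (f : V → ℂ) : Prop := ∀ z : ℝ, z ≠ 0 → ∀ a, f (z • a) = f a

/-! ## Borel operator valued measures and words -/

/-- bounded measurable -/
def BM {Y : Type} [MeasurableSpace Y] (f : Y → ℂ) : Prop := Measurable f ∧ ∃ C, ∀ y, ‖f y‖ ≤ C

/-- indicator function -/
noncomputable def ic {Y : Type} (O : Set Y) : Y → ℂ := O.indicator fun _ => 1

/-- a normalised positive operator valued measure with its bounded Borel calculus -/
structure POVM (Y K : Type) [MeasurableSpace Y] [NormedAddCommGroup K] [InnerProductSpace ℂ K] where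
  E : (Y → ℂ) → K →L[ℂ] K
  ν : K → Measure Y
  fin : ∀ η, IsFiniteMeasure (ν η)
  inner_E : ∀ f, BM f → ∀ η, ⟪η, E f η⟫_ℂ = ∫ y, f y ∂(ν η)
  E_one : E (fun _ => 1) = 1

section
variable {Y Z K : Type} [MeasurableSpace Y] [MeasurableSpace Z] [NormedAddCommGroup K]
  [InnerProductSpace ℂ K]

/-- projection valued -/
def POVM.IsPVM (P : POVM Y K) : Prop :=
  ∀ f g, BM f → BM g → P.E (fun y => f y * g y) = P.E f * P.E g

/-- push-forward -/
noncomputable def POVM.map (P : POVM Y K) (φ : Y → Z) (hφ : Measurable φ) : POVM Z K where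
  E f := P.E (fun y => f (φ y))
  ν η := (P.ν η).map φ
  fin η := by have := P.fin η; infer_instance
  inner_E f hf η := by
    obtain ⟨hm, C, hC⟩ := hf
    rw [P.inner_E (fun y => f (φ y)) ⟨hm.comp hφ, C, fun y => hC _⟩,
      integral_map hφ.aemeasurable hm.aestronglyMeasurable]
  E_one := P.E_one

/-- operator valued polymeasures: multilinear on bounded Borel functions, bounded, and strongly
continuous along bounded pointwise convergent sequences -/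
structure IsPoly {κ : Type} [Fintype κ] [DecidableEq κ] (W : (κ → Y → ℂ) → K →L[ℂ] K) : Prop where
  add : ∀ f i g h, (∀ k, BM (f k)) → BM g → BM h →
    W (Function.update f i fun y => g y + h y)
      = W (Function.update f i g) + W (Function.update f i h)
  smul : ∀ f i (c : ℂ) g, (∀ k, BM (f k)) → BM g →
    W (Function.update f i fun y => c * g y) = c • W (Function.update f i g)
  bdd : ∃ C : ℝ, ∀ f, (∀ k, Measurable (f k)) → (∀ k y, ‖f k y‖ ≤ 1) → ‖W f‖ ≤ C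
  lim : ∀ (f : ℕ → κ → Y → ℂ) (g : κ → Y → ℂ) (C : ℝ), (∀ n k, Measurable (f n k)) →
    (∀ n k y, ‖f n k y‖ ≤ C) → (∀ k y, Tendsto (fun n => f n k y) atTop (𝓝 (g k y))) →
    ∀ η, Tendsto (fun n => W (f n) η) atTop (𝓝 (W g η))

/-- `W` vanishes on all functions supported in the box `O` -/
def NullOn {κ : Type} (W : (κ → Y → ℂ) → K →L[ℂ] K) (O : κ → Set Y) : Prop :=
  ∀ f : κ → Y → ℂ, (∀ k, BM (f k)) → (∀ k y, y ∉ O k → f k y = 0) → W f = 0

/-- the support of a polymeasure -/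
def supp {κ : Type} [TopologicalSpace Y] (W : (κ → Y → ℂ) → K →L[ℂ] K) : Set (κ → Y) :=
  {z | ∀ O : κ → Set Y, (∀ k, O k ∈ 𝓝 (z k)) → ¬ NullOn W O}

/-- the word `P₀(f₀) P₁(f₁) ⋯` -/
noncomputable def word {n : ℕ} (P : Fin n → POVM Y K) (f : Fin n → Y → ℂ) : K →L[ℂ] K :=
  (List.ofFn fun i => (P i).E (f i)).prod

/-- strongly continuous and bounded -/
def SCont {Ω : Type} [TopologicalSpace Ω] (F : Ω → K →L[ℂ] K) : Prop :=
  (∀ η, Continuous fun ω => F ω η) ∧ ∃ C, ∀ ω, ‖F ω‖ ≤ C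

open Classical in
/-- the strong integral `η ↦ ∫ c ω • F ω η` (zero if there is no such bounded operator) -/
noncomputable def sInt {Ω : Type} [MeasurableSpace Ω] (m : Measure Ω) (c : Ω → ℂ)
    (F : Ω → K →L[ℂ] K) : K →L[ℂ] K :=
  if h : ∃ T : K →L[ℂ] K, ∀ η, T η = ∫ ω, c ω • F ω η ∂m then h.choose else 0

/-- `ℓ²(Γ; K)` -/
abbrev LG (K : Type) [NormedAddCommGroup K] : Type := lp (fun _ : Γ => K) 2

/-- square summable rows -/
def RowBd (T : Γ → K →L[ℂ] K) (C : ℝ) : Prop :=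
  ∀ (η : K) (F : Finset Γ), ∑ μ ∈ F, ‖T μ η‖ ^ 2 ≤ C ^ 2 * ‖η‖ ^ 2

open Classical in
/-- the operator `K → ℓ²(Γ; K)` with rows `T μ` (zero if there is none) -/
noncomputable def rows (T : Γ → K →L[ℂ] K) : K →L[ℂ] LG K :=
  if h : ∃ S : K →L[ℂ] LG K, ∀ η μ, S η μ = T μ η then h.choose else 0

end

/-! ## The abstract induced structure -/

/-- The induced bimodule.  Model: `K = L²(X; H)`, `U = ind π`, `C = {a ⊗ c(h)}`, `j*j` = projection
onto the position `μ = e`, `ξ = 1 ⊗ ξ₀`, `y g` = the field `π (coc g x)`. -/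
structure Ind (K : Type) [NormedAddCommGroup K] [InnerProductSpace ℂ K] [CompleteSpace K] where
  U : URep G K
  ρ : URep Γ K
  C : Set (K →L[ℂ] K)
  j : K →L[ℂ] K
  ξ : K
  y : G → K →L[ℂ] K
  cont : U.Cont
  Uρ : ∀ g μ, Commute (U g) (ρ μ)
  one_C : 1 ∈ C
  mul_C : ∀ a ∈ C, ∀ b ∈ C, a * b ∈ C
  star_C : ∀ a ∈ C, star a ∈ C
  conj_C : ∀ a ∈ C, ∀ g, U g * a * U g⁻¹ ∈ C
  Cρ : ∀ a ∈ C, ∀ μ, Commute a (ρ μ)
  Cj : ∀ a ∈ C, Commute a j
  j_sa : star j = j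
  pars : ∀ η, HasSum (fun μ => ‖j (ρ μ⁻¹ η)‖ ^ 2) (‖η‖ ^ 2)
  ξ_ne : ξ ≠ 0
  dense : Dense (Submodule.span ℂ {η | ∃ a ∈ C, ∃ μ, η = a (ρ μ ξ)} : Set K)
  bes : ∀ Y ∈ C.centralizer, ∀ F : Finset Γ,
    ∑ μ ∈ F, ‖j (Y (ρ μ⁻¹ ξ))‖ ^ 2 ≤ ‖star Y ξ‖ ^ 2
  sym : ∀ T ∈ C.centralizer, (∀ μ, Commute T (ρ μ)) → ∀ μ,
    ‖j (ρ μ⁻¹ (T ξ))‖ = ‖j (ρ μ (star T ξ))‖
  y_N : ∀ g, y g ∈ C.centralizer
  y_ρ : ∀ g μ, Commute (y g) (ρ μ)
  y_un : ∀ g, y g ∈ unitary (K →L[ℂ] K)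
  V_j : ∀ g, Commute (U g * star (y g)) j
  V_ξ : ∀ g, U g (star (y g) ξ) = ξ
  erg : ∀ T ∈ C.centralizer, (∀ μ, Commute T (ρ μ)) → ∀ (i k : Fin 3) (h : i ≠ k),
    (∀ b, Commute T (U (tv h b))) → ∃ c : ℂ, T = c • (1 : K →L[ℂ] K)
  mix : ∀ T ∈ C.centralizer, (∀ μ, Commute T (ρ μ)) → ∀ (a b : ℕ → ℝ) (i k : Fin 3),
    Tendsto (fun n => dgl (a n) (b n) i - dgl (a n) (b n) k) atTop atTop →
    WTends atTop (fun n => U (dg (a n) (b n)) * T * U (dg (a n) (b n))⁻¹)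
      ((⟪ξ, T ξ⟫_ℂ / (‖ξ‖ ^ 2 : ℝ)) • (1 : K →L[ℂ] K))
  trk : ∃ ω : (K →L[ℂ] K) →ₗ[ℂ] ℂ, ω 1 = 1 ∧ (∀ T, 0 ≤ T → 0 ≤ (ω T).re) ∧
    ∀ T ∈ C.centralizer, (∀ g, Commute T (U g)) → ∀ μ, ω (ρ μ * T * ρ μ⁻¹) = ω T
  sep : Dense (Submodule.span ℂ {η | (∃ a ∈ C, ∃ μ, η = a (ρ μ ξ)) ∧ ∃ B R : ℝ,
    ∀ Y ∈ C.centralizer, ∀ (n : ℕ) (g : Fin n → G), (∀ i k, i ≠ k → R < nm ((g i)⁻¹ * g k)) →
      ∑ i, ‖j (Y (U (g i) η))‖ ^ 2 ≤ B * ‖star Y ξ‖ ^ 2} : Set K)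

namespace Ind

variable {K : Type} [NormedAddCommGroup K] [InnerProductSpace ℂ K] [CompleteSpace K] (I : Ind K)

/-- the commutant of the coefficients -/
def N : Set (K →L[ℂ] K) := I.C.centralizer

/-- the finite algebra -/
def Q : Set (K →L[ℂ] K) := {T | T ∈ I.N ∧ ∀ μ, Commute T (I.ρ μ)}

/-- the isometry `K → ℓ²(Γ; K)` -/
noncomputable def J : K →L[ℂ] LG K := rows fun μ => I.j * I.ρ μ⁻¹

/-- `F · J` -/
noncomputable def mJ (F : Γ → ℂ) : K →L[ℂ] LG K := rows fun μ => F μ • (I.j * I.ρ μ⁻¹)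

/-- the position POVM `m F = J* F J` -/
noncomputable def m (F : Γ → ℂ) : K →L[ℂ] K := ContinuousLinearMap.adjoint I.J ∘L I.mJ F

/-- Bessel vectors -/
def Bes (B : ℝ) (η : K) : Prop :=
  ∀ Y ∈ I.N, ∀ F : Finset Γ, ∑ μ ∈ F, ‖I.j (Y (I.ρ μ⁻¹ η))‖ ^ 2 ≤ B ^ 2 * ‖star Y I.ξ‖ ^ 2

/-- `σ k T = U(α_k)⁻¹ T U(α_k)` -/
noncomputable def σ (k : ℕ) (T : K →L[ℂ] K) : K →L[ℂ] K := I.U (al k)⁻¹ * T * I.U (al k)

/-- the mass of `U(α_k) ξ` against `F` -/
noncomputable def ms (k : ℕ) (F : Γ → ℝ) : ℝ :=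
  ∑' μ, F μ * ‖I.j (I.ρ μ⁻¹ (I.U (al k) I.ξ))‖ ^ 2

/-- weak limits of position operators along the flow -/
def LimSet : Set (K →L[ℂ] K) :=
  {T | ∃ (l : Filter ℕ) (F : ℕ → Γ → ℂ), l.NeBot ∧ l ≤ atTop ∧ (∀ k μ, ‖F k μ‖ ≤ 1) ∧
    WTends l (fun k => I.σ k (I.m (F k))) T}

/-- tightness on the point shells at levels `L k` -/
def Tight (L : ℕ → ℝ) : Prop :=
  Tendsto L atTop atTop ∧ ∀ ε > 0, ∃ R, ∀ᶠ k in atTop,
    I.ms k ((Sh (L k) R)ᶜ.indicator fun _ => 1) ≤ ε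

/-- concentration of two-sided slowly varying functions -/
def Conc : Prop :=
  ∀ (k : ℕ → ℕ) (F : ℕ → Γ → ℝ), (∀ n μ, F n μ ∈ Set.Icc (0 : ℝ) 1) →
    (∀ ν : Γ, ∀ ε > 0, ∀ᶠ n in atTop, ∀ μ,
      |F n (ν * μ) - F n μ| ≤ ε ∧ |F n (μ * ν) - F n μ| ≤ ε) →
    Tendsto (fun n => ‖I.ξ‖ ^ 2 * I.ms (k n) (fun μ => F n μ ^ 2) - I.ms (k n) (F n) ^ 2)
      atTop (𝓝 0)

/-- no covariant POVM on flags commutes with `SL₂(ℝ)` -/
def NoFlag : Prop :=
  ∀ P : POVM (V × V) K,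
    P.E (ic {z | ‖z.1‖ = 1 ∧ ‖z.2‖ = 1 ∧ z.1 ⬝ᵥ z.2 = 0}) = 1 →
    (∀ f, BM f → P.E f ∈ I.N) →
    (∀ f, BM f → ∀ b, Commute (P.E f) (I.U (tv (show (1 : Fin 3) ≠ 2 by decide) b)) ∧
      Commute (P.E f) (I.U (tv (show (2 : Fin 3) ≠ 1 by decide) b))) →
    (∀ f, BM f → (∀ a b, f (-a, b) = f (a, b) ∧ f (a, -b) = f (a, b)) → ∀ ν : Γ,
      I.ρ ν * P.E f * I.ρ ν⁻¹
        = P.E fun z => f (nrm (ac (ι ν⁻¹) z.1), nrm (ac (ι (dl ν⁻¹)) z.2))) → False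

/-- ping-pong pair: a `U`-covariant POVM on `G`, seen through two functions -/
def PP : Prop :=
  ∃ E₁ ∈ I.N, ∃ E₂ ∈ I.N, ∃ B : ℝ, 0 ≤ E₁ ∧ 0 ≤ E₂ ∧ E₁ + E₂ = 1 ∧ ∀ n : ℕ,
    ∑ r ∈ Finset.range n, I.U (tv (show (2 : Fin 3) ≠ 1 by decide) r)⁻¹ * E₁
      * I.U (tv (show (2 : Fin 3) ≠ 1 by decide) r) ≤ (B : ℂ) • (1 : K →L[ℂ] K) ∧
    ∑ r ∈ Finset.range n, I.U (tv (show (1 : Fin 3) ≠ 2 by decide) r)⁻¹ * E₂
      * I.U (tv (show (1 : Fin 3) ≠ 2 by decide) r) ≤ (B : ℂ) • (1 : K →L[ℂ] K)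

/-- `I'` has the data of `I` with `U`, `ρ` precomposed by `a`, `b` and everything conjugated by the
unitary involution `s` -/
structure Rel (I' : Ind K) (a : G →* G) (b : Γ →* Γ) (s : K →L[ℂ] K) : Prop where
  U : ∀ g, I'.U g = s * I.U (a g) * s
  ρ : ∀ μ, I'.ρ μ = s * I.ρ (b μ) * s
  C : I'.C = (fun c => s * c * s) '' I.C
  j : I'.j = s * I.j * s
  ξ : I'.ξ = s I.ξ

/-- duality on both sides -/
def IsDual (I' : Ind K) : Prop := I.Rel I' dl dl 1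

/-- duality on the target only -/
def IsTw (I' : Ind K) : Prop := I.Rel I' (MonoidHom.id G) dl 1

/-- conjugation -/
def IsConj (I' : Ind K) (s : K →L[ℂ] K) : Prop := I.Rel I' (MonoidHom.id G) (MonoidHom.id Γ) s

/-- two legs exchanged by the flip `s` -/
structure Two (s : K →L[ℂ] K) : Prop where
  s_sa : star s = s
  s_s : s * s = 1
  s_U : ∀ g, Commute s (I.U g)
  s_y : ∀ g, Commute s (I.y g)
  s_ξ : s I.ξ = I.ξ
  ρ_C : ∀ μ, s * I.ρ μ * s ∈ I.C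
  Cρ : ∀ a ∈ I.C, ∀ μ, ∃ a' ∈ I.C, ∃ μ', s * (a * I.ρ μ) * s = a' * I.ρ μ'
  jj : I.j * I.j = I.j
  jρj : ∀ μ, μ ≠ 1 → I.j * I.ρ μ * I.j = 0
  j_j : Commute I.j (s * I.j * s)

/-- the final output: an equivariant family of wandering projections -/
structure Out (P : G → K →L[ℂ] K) : Prop where
  sa : ∀ g, star (P g) = P g
  idem : ∀ g, P g * P g = P g
  cov : ∀ h g, I.U h * P g * I.U h⁻¹ = P (h * g)
  wand : ∀ g μ, μ ≠ 1 → P g * I.ρ μ * P g = 0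
  ne : P 1 ≠ 0
  mem : ∀ g, P g ∈ I.N
  gen : ∀ S : K →L[ℂ] K, (∀ g, Commute S (I.U g)) → (∀ μ, Commute S (I.ρ μ)) → Commute S I.j →
    ∀ g, Commute S (P g)

/-! ## Boundary geometry -/

/-- the boundary PVM on points (concentrated on the section of the unit sphere) -/
structure IsPro (Φ : V → POVM V K) : Prop where
  pvm : ∀ x, (Φ x).IsPVM
  conc : ∀ x f, BM f → (Φ x).E f = (Φ x).E fun a => f (sg (nrm a))
  zero : ∀ x, (Φ x).E (ic {0}) = 0
  covU : ∀ x, x ≠ 0 → ∀ f, BM f → ∀ g, I.U g * (Φ x).E f * I.U g⁻¹ = (Φ (ac g x)).E f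
  scal : ∀ x, x ≠ 0 → ∀ z : ℝ, z ≠ 0 → ∀ f, BM f → (Φ (z • x)).E f = (Φ x).E f
  covρ : ∀ x, x ≠ 0 → ∀ f, BM f → Hom0 f → ∀ ν : Γ,
    I.ρ ν * (Φ x).E f * I.ρ ν⁻¹ = (Φ x).E fun a => f (ac (ι ν⁻¹) a)
  gen : ∀ S : K →L[ℂ] K, (∀ T ∈ I.LimSet, Commute S T) → ∀ f, BM f → Commute S ((Φ (ev 0)).E f)
  strong : ∀ f, BM f → Hom0 f → ContinuousOn f {0}ᶜ → ∀ η,
    Tendsto (fun k : ℕ => I.mJ (fun μ => f (pt μ)) (I.U (al k) η)
      - I.J (I.U (al k) ((Φ (ev 0)).E f η))) atTop (𝓝 0)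

/-- points `Φ` (for `I`) and lines `Ψ` (for the dual): incidence and commutation -/
structure IsInc (Φ Ψ : V → POVM V K) : Prop where
  inc : ∀ x y, x ≠ 0 → y ≠ 0 → x ⬝ᵥ y = 0 → ∀ z ∈ supp (word ![Φ x, Ψ y]), z 0 ⬝ᵥ z 1 = 0
  comm : ∀ x y, x ≠ 0 → y ≠ 0 → x ⬝ᵥ y = 0 → ∀ f h, BM f → BM h →
    Commute ((Φ x).E f) ((Ψ y).E h)

/-- the lifted PVM on `V/±` -/
structure IsLift (L : ℕ → ℝ) (Φ A : V → POVM V K) (sc : ℝ → ℝ) : Prop where
  pvm : ∀ x, (A x).IsPVM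
  conc : ∀ x f, BM f → (A x).E f = (A x).E fun a => f (sg a)
  zero : ∀ x, (A x).E (ic {0}) = 0
  proj : ∀ x, x ≠ 0 → ∀ f, BM f → (Φ x).E f = (A x).E fun a => f (nrm a)
  covU : ∀ x, x ≠ 0 → ∀ f, BM f → ∀ g, I.U g * (A x).E f * I.U g⁻¹ = (A (ac g x)).E f
  sc_pos : ∀ z, z ≠ 0 → 0 < sc z
  sc_mul : ∀ z w, z ≠ 0 → w ≠ 0 → sc (z * w) = sc z * sc w
  scal : ∀ x, x ≠ 0 → ∀ z : ℝ, z ≠ 0 → ∀ f, BM f →
    (A (z • x)).E f = (A x).E fun a => f (sc z • a)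
  covρ : ∀ x, x ≠ 0 → ∀ f, BM f → Ev f → ∀ ν : Γ,
    I.ρ ν * (A x).E f * I.ρ ν⁻¹ = (A x).E fun a => f (ac (ι ν⁻¹) a)
  gen : ∀ S : K →L[ℂ] K, (∀ T ∈ I.LimSet, Commute S T) → ∀ f, BM f → Commute S ((A (ev 0)).E f)
  lift : ∃ l : Filter ℕ, l.NeBot ∧ l ≤ atTop ∧ ∃ t₀ > (0 : ℝ), ∀ t : ℝ, |t| < t₀ →
    ∃ c : ℂ, c ≠ 0 ∧ WTends l
      (fun k => I.σ k (I.m fun μ =>
        Complex.exp (Complex.I * (t * (Real.log (nm (ι μ)) - 2 * L k) : ℝ))))
      (c • (A (ev 0)).E fun a => Complex.exp (Complex.I * (t * Real.log ‖a‖ : ℝ)))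

end Ind

section
variable {K : Type} [NormedAddCommGroup K] [InnerProductSpace ℂ K] [CompleteSpace K]

/-- all the boundary data of `I` and of its dual `I'` (output of modules D and E) -/
structure Geo (I I' : Ind K) (L : ℕ → ℝ) (Φ Ψ A B : V → POVM V K) (sc sc' : ℝ → ℝ) : Prop where
  dual : I.IsDual I'
  tight : I.Tight L
  tight' : I'.Tight L
  pro : I.IsPro Φ
  pro' : I'.IsPro Ψ
  inc : Ind.IsInc Φ Ψ
  lift : I.IsLift L Φ A sc
  lift' : I'.IsLift L Ψ B sc'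
  AΨ : ∀ x y, x ≠ 0 → y ≠ 0 → x ⬝ᵥ y = 0 → ∀ f h, BM f → BM h → Commute ((A x).E f) ((Ψ y).E h)
  BΦ : ∀ x y, x ≠ 0 → y ≠ 0 → x ⬝ᵥ y = 0 → ∀ f h, BM f → BM h → Commute ((Φ x).E f) ((B y).E h)

/-- `L k` is the logarithmic scaling of the lift -/
def LC (L : ℕ → ℝ) (sc : ℝ → ℝ) : Prop :=
  ∃ C : ℝ, ∀ᶠ k : ℕ in atTop, |Real.log (sc (Real.exp (2 * k))) - 2 * L k| ≤ C

/-- commutativity of the boundary geometry (output of module F) -/
structure Com (L : ℕ → ℝ) (A B : V → POVM V K) (sc sc' : ℝ → ℝ) : Prop where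
  AA : ∀ x x', x ≠ 0 → x' ≠ 0 → ∀ f g, BM f → BM g → Commute ((A x).E f) ((A x').E g)
  AB : ∀ x y, x ≠ 0 → y ≠ 0 → ∀ f g, BM f → BM g → Commute ((A x).E f) ((B y).E g)
  lc : LC L sc
  lc' : LC L sc'
  cross : ∃ k > (0 : ℝ), ∀ z ∈ supp (word ![A (ev 0), A (ev 1), B (ev 2)]), (∀ i, z i ≠ 0) →
    z 0 ⨯₃ z 1 = k • z 2 ∨ z 0 ⨯₃ z 1 = -(k • z 2)
  det : ∃ D > (0 : ℝ), ∀ z ∈ supp (word ![A (ev 0), A (ev 1), A (ev 2)]), (∀ i, z i ≠ 0) →
    |z 0 ⬝ᵥ (z 1 ⨯₃ z 2)| = D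

end

/-! ## The discrete setting -/

/-- `H` with commuting representations of the source `Γ` and of the target `Γ^κ`, and a vector whose
target orbit is a Parseval frame -/
structure Setting (κ H : Type) [Fintype κ] [DecidableEq κ] [NormedAddCommGroup H]
    [InnerProductSpace ℂ H] [CompleteSpace H] where
  π : URep Γ H
  R : URep (κ → Γ) H
  ξ : H
  comm : ∀ γ g, Commute (π γ) (R g)
  ξ_ne : ξ ≠ 0
  pars : ∀ η, HasSum (fun g => ‖⟪R g ξ, η⟫_ℂ‖ ^ 2) (‖η‖ ^ 2)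
  orth : ∀ i γ g, g i = 1 → ¬ (γ = 1 ∧ g = 1) → ⟪ξ, π γ (R g ξ)⟫_ℂ = 0
  erg : ∃ L : URep Γ H, ErgData (Set.range R) π L ξ
  tr : ∀ i, ∃ ω : (H →L[ℂ] H) →ₗ[ℂ] ℂ, ω 1 = 1 ∧ (∀ T, 0 ≤ T → 0 ≤ (ω T).re) ∧
    ∀ T, (∀ γ, Commute T (π γ)) → (∀ g, g i = 1 → Commute T (R g)) →
      ∀ μ, ω (R (Pi.mulSingle i μ) * T * R (Pi.mulSingle i μ)⁻¹) = ω T

namespace Setting

variable {κ H : Type} [Fintype κ] [DecidableEq κ] [NormedAddCommGroup H] [InnerProductSpace ℂ H]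
  [CompleteSpace H] (S : Setting κ H)

/-- `j₀* j₀` is the position operator `{g i = 1}` -/
def IsJ (i : κ) (j₀ : H →L[ℂ] H) : Prop :=
  0 ≤ j₀ ∧ ∀ η, HasSum (fun g : {g : κ → Γ // g i = 1} => ‖⟪S.R g S.ξ, η⟫_ℂ‖ ^ 2) (‖j₀ η‖ ^ 2)

/-- `I` is the structure induced from leg `i` -/
structure IsInd (i : κ) (j₀ : H →L[ℂ] H) (I : Ind (L2X H)) : Prop where
  hj : S.IsJ i j₀
  U : I.U = ind S.π
  ρ : ∀ μ, I.ρ μ = amp (S.R (Pi.mulSingle i μ))
  C : I.C = {T | ∃ a : X → ℂ, BM a ∧ ∃ g : κ → Γ, g i = 1 ∧ T = mulf H a * amp (S.R g)}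
  j : I.j = amp j₀
  ξ : I.ξ = cst H S.ξ
  y : ∀ g, I.y g = fld μ fun x => S.π (coc g x)

/-- the flip of legs `1` and `2` -/
structure Flip {H : Type} [NormedAddCommGroup H] [InnerProductSpace ℂ H] [CompleteSpace H]
    (S : Setting (Fin 3) H) (s : H →L[ℂ] H) : Prop where
  s_sa : star s = s
  s_s : s * s = 1
  s_π : ∀ γ, Commute s (S.π γ)
  s_ξ : s S.ξ = S.ξ
  s_R : ∀ g, s * S.R g * s = S.R (g ∘ Equiv.swap 1 2)
  on : Orthonormal ℂ fun g => S.R g S.ξ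

end Setting

end Crest.Agent.N111
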